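import Vale.Agent.Lib.P042.UB.Alg.Padic

set_option autoImplicit false

namespace Vale.Agent.P042.UB

open Polynomial

theorem fam_eventually_pos (P : ℤ[X]) (h : 0 < P.leadingCoeff) :
    ∃ N : ℕ, ∀ s : ℕ, N ≤ s → 0 < P.eval (s : ℤ) := by
  rcases Nat.eq_zero_or_pos P.natDegree with hd | hd
  · obtain ⟨c, hc⟩ : ∃ c, P = C c := ⟨_, eq_C_of_natDegree_eq_zero hd⟩
    subst hc
    refine ⟨0, fun s _ => ?_⟩
    rw [leadingCoeff_C] at h
    rw [eval_C]
    exact h
  · have hinj : Function.Injective (Int.castRingHom ℝ) := Int.cast_injective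
    have h1 : Filter.Tendsto (fun x : ℝ => (P.map (Int.castRingHom ℝ)).eval x)
        Filter.atTop Filter.atTop := by
      apply Polynomial.tendsto_atTop_of_leadingCoeff_nonneg
      · rw [degree_map_eq_of_injective hinj]
        exact natDegree_pos_iff_degree_pos.mp hd
      · rw [leadingCoeff_map_of_injective hinj]
        simpa using h.le
    have h2 := h1.comp (tendsto_natCast_atTop_atTop (R := ℝ))
    obtain ⟨N, hN⟩ := Filter.eventually_atTop.mp (h2.eventually_gt_atTop 0)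
    refine ⟨N, fun s hs => ?_⟩
    have h3 := hN s hs
    have h4 : (P.map (Int.castRingHom ℝ)).eval (s : ℝ) = ((P.eval (s : ℤ) : ℤ) : ℝ) := by
      have := Polynomial.eval_intCast_map (Int.castRingHom ℝ) P (s : ℤ)
      simpa only [Int.cast_natCast, eq_intCast] using this
    simp only [Function.comp_apply] at h3
    rw [h4] at h3
    exact_mod_cast h3

/-- PROOF. All Taylor coefficients of `h` at `s` are positive for `s` large, because the `j`-th
Hasse derivative has positive leading coefficient for `j ≤ k`. -/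
theorem exists_shift (h : ℤ[X]) (hlc : 0 < h.leadingCoeff) :
    ∃ s : ℕ, ∀ j : ℕ, j ≤ h.natDegree → 0 < (h.comp (X + C (s : ℤ))).coeff j := by
  have key : ∀ j : ℕ, ∃ N : ℕ, j ≤ h.natDegree → ∀ s : ℕ, N ≤ s →
      0 < (hasseDeriv j h).eval (s : ℤ) := by
    intro j
    by_cases hj : j ≤ h.natDegree
    · obtain ⟨N, hN⟩ := fam_eventually_pos (hasseDeriv j h) (by
        rw [leadingCoeff, natDegree_hasseDeriv, hasseDeriv_coeff, Nat.sub_add_cancel hj]
        have : 0 < h.natDegree.choose j := Nat.choose_pos hj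
        have h2 : 0 < h.coeff h.natDegree := hlc
        positivity)
      exact ⟨N, fun _ => hN⟩
    · exact ⟨0, fun h' => absurd h' hj⟩
  choose N hN using key
  refine ⟨(Finset.range (h.natDegree + 1)).sup N, fun j hj => ?_⟩
  have := hN j hj _ (Finset.le_sup (f := N) (Finset.mem_range.mpr (Nat.lt_succ_of_le hj)))
  rw [← taylor_coeff, taylor_apply] at this
  exact this

/-- the multiplicative function `d ↦ ∏_p p^{m_p v_p(d)}` -/
def lamOf (m : ℕ → ℕ) (d : ℕ) : ℕ := d.factorization.prod fun p v => p ^ (m p * v)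

theorem lamOf_mul (m : ℕ → ℕ) {a b : ℕ} (ha : 0 < a) (hb : 0 < b) :
    lamOf m (a * b) = lamOf m a * lamOf m b := by
  unfold lamOf
  rw [Nat.factorization_mul ha.ne' hb.ne', Finsupp.prod_add_index']
  · intro p; simp
  · intro p v w; rw [mul_add, pow_add]

theorem lamOf_pos (m : ℕ → ℕ) (d : ℕ) : 0 < lamOf m d := by
  unfold lamOf
  apply Finset.prod_pos
  intro p hp
  exact pow_pos (Nat.Prime.pos (Nat.prime_of_mem_primeFactors hp)) _

theorem lamOf_one (m : ℕ → ℕ) : lamOf m 1 = 1 := by simp [lamOf]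

theorem dvd_lamOf {m : ℕ → ℕ} (hm : ∀ p, p.Prime → 1 ≤ m p) {d : ℕ} (hd : 0 < d) :
    d ∣ lamOf m d := by
  conv_lhs => rw [← Nat.prod_factorization_pow_eq_self hd.ne']
  unfold lamOf
  apply Finset.prod_dvd_prod_of_dvd
  intro p hp
  apply pow_dvd_pow
  exact Nat.le_mul_of_pos_left _ (hm p (Nat.prime_of_mem_primeFactors hp))

theorem lamOf_dvd_pow {m : ℕ → ℕ} {k : ℕ} (hm : ∀ p, p.Prime → m p ≤ k) {d : ℕ} (hd : 0 < d) :
    lamOf m d ∣ d ^ k := by
  conv_rhs => rw [← Nat.prod_factorization_pow_eq_self hd.ne']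
  unfold lamOf
  rw [Finsupp.prod, Finsupp.prod, ← Finset.prod_pow]
  apply Finset.prod_dvd_prod_of_dvd
  intro p hp
  rw [← pow_mul]
  apply pow_dvd_pow
  rw [mul_comm]
  exact Nat.mul_le_mul_left _ (hm p (Nat.prime_of_mem_primeFactors hp))

theorem lamOf_prime_pow (m : ℕ → ℕ) {p : ℕ} (hp : p.Prime) (v : ℕ) :
    lamOf m (p ^ v) = p ^ (m p * v) := by
  unfold lamOf
  rw [hp.factorization_pow, Finsupp.prod_single_index]
  simp

theorem lamOf_dvd {m : ℕ → ℕ} {d : ℕ} {x : ℤ}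
    (h : ∀ p : ℕ, p.Prime → (p : ℤ) ^ (m p * d.factorization p) ∣ x) : (lamOf m d : ℤ) ∣ x := by
  unfold lamOf
  rw [Finsupp.prod, Nat.cast_prod]
  apply Finset.prod_dvd_of_coprime
  · intro p hp q hq hpq
    simp only [Function.onFun, Nat.cast_pow]
    apply IsCoprime.pow
    rw [Nat.isCoprime_iff_coprime]
    exact (Nat.coprime_primes (Nat.prime_of_mem_primeFactors hp)
      (Nat.prime_of_mem_primeFactors hq)).mpr hpq
  · intro p hp
    rw [Nat.cast_pow]
    exact h p (Nat.prime_of_mem_primeFactors hp)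

theorem dvd_of_padic {d : ℕ} (hd : 0 < d) {x : ℤ}
    (h : ∀ (p : ℕ) [Fact p.Prime], (p : ℤ_[p]) ^ (d.factorization p) ∣ (x : ℤ_[p])) :
    (d : ℤ) ∣ x := by
  have h1 : lamOf (fun _ => 1) d = d := by
    unfold lamOf
    simp only [one_mul]
    exact Nat.prod_factorization_pow_eq_self hd.ne'
  rw [← h1]
  apply lamOf_dvd
  intro p hp
  have := Fact.mk hp
  rw [one_mul]
  exact (PadicInt.pow_p_dvd_int_iff _ _).mp (h p)

/-- Chinese remainder: approximating the roots -/
theorem exists_crt (z : ∀ (p : ℕ) [Fact p.Prime], ℤ_[p]) {d : ℕ} (hd : 0 < d) :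
    ∃ r : ℕ, r < d ∧ ∀ (p : ℕ) [Fact p.Prime],
      (p : ℤ_[p]) ^ (d.factorization p) ∣ ((r : ℤ_[p]) - z p) := by
  classical
  let a : ℕ → ℕ := fun p => if hp : p.Prime then
    (have := Fact.mk hp; (z p).appr (d.factorization p)) else 0
  let s : ℕ → ℕ := fun p => p ^ (d.factorization p)
  have hs : ∀ i ∈ d.primeFactors, s i ≠ 0 := by
    intro i hi
    exact pow_ne_zero _ (Nat.prime_of_mem_primeFactors hi).ne_zero
  have pp : Set.Pairwise (d.primeFactors : Set ℕ) (Function.onFun Nat.Coprime s) := by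
    intro p hp q hq hpq
    exact Nat.Coprime.pow _ _ ((Nat.coprime_primes (Nat.prime_of_mem_primeFactors hp)
      (Nat.prime_of_mem_primeFactors hq)).mpr hpq)
  refine ⟨(Nat.chineseRemainderOfFinset a s d.primeFactors hs pp).1, ?_, ?_⟩
  · refine lt_of_lt_of_eq (Nat.chineseRemainderOfFinset_lt_prod a s hs pp) ?_
    exact Nat.prod_factorization_pow_eq_self hd.ne'
  · intro p hp
    by_cases hmem : p ∈ d.primeFactors
    · have h1 := (Nat.chineseRemainderOfFinset a s d.primeFactors hs pp).2 p hmem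
      generalize (Nat.chineseRemainderOfFinset a s d.primeFactors hs pp).1 = r at h1 ⊢
      have h2 : a p = (z p).appr (d.factorization p) := by
        simp only [a, dif_pos hp.out]
      rw [h2] at h1
      have h3 : ((p : ℤ) ^ (d.factorization p)) ∣
          (r : ℤ) - ((z p).appr (d.factorization p) : ℤ) := by
        have := (Nat.modEq_iff_dvd.mp h1.symm)
        simpa [s] using this
      have h4 := (PadicInt.pow_p_dvd_int_iff _ _).mpr h3
      have h5 := Ideal.mem_span_singleton.mp (PadicInt.appr_spec (d.factorization p) (z p))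
      have h6 := dvd_sub h4 h5
      push_cast at h6
      have h7 : (r : ℤ_[p]) - ((z p).appr (d.factorization p) : ℤ_[p]) -
          (z p - ((z p).appr (d.factorization p) : ℤ_[p])) = (r : ℤ_[p]) - z p := by ring
      rwa [h7] at h6
    · have : d.factorization p = 0 := by
        rw [← Finsupp.notMem_support_iff, Nat.support_factorization]
        exact hmem
      rw [this, pow_zero]
      exact one_dvd _

/-! ### Taylor coefficients -/

theorem taylor_coeff_sum (h : ℤ[X]) {k : ℕ} (hdeg : h.natDegree = k) (r j : ℕ) :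
    (taylor (r : ℤ) h).coeff j =
      ∑ n ∈ Finset.range (k + 1), ((n + j).choose j : ℤ) * h.coeff (n + j) * (r : ℤ) ^ n := by
  rw [taylor_coeff, eval_eq_sum_range' (n := k + 1)]
  · refine Finset.sum_congr rfl fun n _ => ?_
    rw [hasseDeriv_coeff]
  · have := natDegree_hasseDeriv_le h j
    omega

theorem fam_coeff_nonneg {h : ℤ[X]} {k : ℕ} (hdeg : h.natDegree = k)
    (hpos : ∀ j : ℕ, j ≤ k → 0 < h.coeff j) (i : ℕ) : 0 ≤ h.coeff i := by
  by_cases hi : i ≤ k
  · exact (hpos i hi).le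
  · rw [coeff_eq_zero_of_natDegree_lt (by omega)]

theorem le_taylor_coeff {h : ℤ[X]} {k : ℕ} (hdeg : h.natDegree = k)
    (hpos : ∀ j : ℕ, j ≤ k → 0 < h.coeff j) (r j : ℕ) :
    h.coeff j ≤ (taylor (r : ℤ) h).coeff j := by
  rw [taylor_coeff_sum h hdeg]
  have h1 : ∀ n ∈ Finset.range (k + 1),
      0 ≤ ((n + j).choose j : ℤ) * h.coeff (n + j) * (r : ℤ) ^ n := by
    intro n _
    have := fam_coeff_nonneg hdeg hpos (n + j)
    positivity
  have h2 := Finset.single_le_sum h1 (Finset.mem_range.mpr (Nat.succ_pos k))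
  simpa using h2

/-- the bound for the coefficients -/
def famBd (h : ℤ[X]) (k : ℕ) : ℕ :=
  ∑ j ∈ Finset.range (k + 1), ∑ n ∈ Finset.range (k + 1), (n + j).choose j * (h.coeff (n + j)).toNat

theorem taylor_coeff_le {h : ℤ[X]} {k : ℕ} (hdeg : h.natDegree = k)
    (hpos : ∀ j : ℕ, j ≤ k → 0 < h.coeff j) {r d j : ℕ} (hrd : r < d) (hj : j ≤ k) :
    (taylor (r : ℤ) h).coeff j * (d : ℤ) ^ j ≤ (famBd h k : ℤ) * (d : ℤ) ^ k := by
  have h0 : ∀ i, ((h.coeff i).toNat : ℤ) = h.coeff i := fun i =>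
    Int.toNat_of_nonneg (fam_coeff_nonneg hdeg hpos i)
  have h1 : (∑ n ∈ Finset.range (k + 1), ((n + j).choose j : ℤ) * h.coeff (n + j)) ≤
      (famBd h k : ℤ) := by
    have : (∑ n ∈ Finset.range (k + 1), (n + j).choose j * (h.coeff (n + j)).toNat) ≤ famBd h k :=
      Finset.single_le_sum (f := fun j => ∑ n ∈ Finset.range (k + 1),
        (n + j).choose j * (h.coeff (n + j)).toNat) (fun _ _ => Nat.zero_le _)
        (Finset.mem_range.mpr (Nat.lt_succ_of_le hj))
    have h2 : ((∑ n ∈ Finset.range (k + 1), (n + j).choose j * (h.coeff (n + j)).toNat : ℕ) : ℤ) ≤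
      (famBd h k : ℤ) := by exact_mod_cast this
    rw [Nat.cast_sum] at h2
    refine le_trans (le_of_eq ?_) h2
    refine Finset.sum_congr rfl fun n _ => ?_
    rw [Nat.cast_mul, h0]
  have hd1 : (1 : ℤ) ≤ d := by
    have : 1 ≤ d := by omega
    exact_mod_cast this
  refine le_trans ?_ (mul_le_mul_of_nonneg_right h1 (by positivity))
  rw [taylor_coeff_sum h hdeg, Finset.sum_mul, Finset.sum_mul]
  refine Finset.sum_le_sum fun n _ => ?_
  have hc := fam_coeff_nonneg hdeg hpos (n + j)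
  by_cases hnj : n + j ≤ k
  · rw [mul_assoc]
    refine mul_le_mul_of_nonneg_left ?_ (by positivity)
    calc (r : ℤ) ^ n * (d : ℤ) ^ j ≤ (d : ℤ) ^ n * (d : ℤ) ^ j := by
          refine mul_le_mul_of_nonneg_right ?_ (by positivity)
          exact pow_le_pow_left₀ (by positivity) (by exact_mod_cast hrd.le) _
      _ = (d : ℤ) ^ (n + j) := by rw [pow_add]
      _ ≤ (d : ℤ) ^ k := pow_le_pow_right₀ hd1 hnj
  · rw [coeff_eq_zero_of_natDegree_lt (show h.natDegree < n + j by omega)]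
    simp

theorem leading_taylor {h : ℤ[X]} {k : ℕ} (hdeg : h.natDegree = k) (r : ℤ) :
    (taylor r h).coeff k = h.coeff k := by
  have h1 : (taylor r h).natDegree = h.natDegree := natDegree_taylor h r
  have h2 := leadingCoeff_taylor r h
  rw [leadingCoeff, leadingCoeff, h1, hdeg] at h2
  exact h2

/-! ### Integrality -/

theorem taylor_mul_pow_dvd {p : ℕ} [Fact p.Prime] (h : ℤ[X]) (z : ℤ_[p]) {r d v m : ℕ}
    (hm : (X - C z) ^ m ∣ h.map (Int.castRingHom ℤ_[p]))
    (hr : (p : ℤ_[p]) ^ v ∣ ((r : ℤ_[p]) - z)) (hd : (p : ℤ_[p]) ^ v ∣ (d : ℤ_[p])) (j : ℕ) :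
    (p : ℤ) ^ (m * v) ∣ (taylor (r : ℤ) h).coeff j * (d : ℤ) ^ j := by
  rw [← PadicInt.pow_p_dvd_int_iff]
  have e1 : (((taylor (r : ℤ) h).comp (C (d : ℤ) * X)).map (Int.castRingHom ℤ_[p])) =
      ((h.map (Int.castRingHom ℤ_[p])).comp (X + C (r : ℤ_[p]))).comp (C (d : ℤ_[p]) * X) := by
    rw [taylor_apply, Polynomial.map_comp, Polynomial.map_comp]
    simp
  have e2 : C ((p : ℤ_[p]) ^ (m * v)) ∣
      ((h.map (Int.castRingHom ℤ_[p])).comp (X + C (r : ℤ_[p]))).comp (C (d : ℤ_[p]) * X) := by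
    obtain ⟨G, hG⟩ := hm
    rw [hG]
    simp only [mul_comp, pow_comp, sub_comp, X_comp, C_comp, add_comp]
    refine Dvd.dvd.mul_right ?_ _
    rw [mul_comm m v, pow_mul, C_pow]
    apply pow_dvd_pow_of_dvd
    have e3 : C (d : ℤ_[p]) * X + C (r : ℤ_[p]) - C z =
        C (d : ℤ_[p]) * X + C ((r : ℤ_[p]) - z) := by
      rw [C_sub]; ring
    rw [e3]
    exact dvd_add (Dvd.dvd.mul_right (map_dvd C hd) _) (map_dvd C hr)
  rw [← e1] at e2
  have e4 := (C_dvd_iff_dvd_coeff _ _).mp e2 j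
  rw [coeff_map, comp_C_mul_X_coeff] at e4
  simpa using e4

/-- the local content estimate -/
theorem content_local {p : ℕ} [Fact p.Prime] (h : ℤ[X]) {k : ℕ} (hk : 1 ≤ k)
    (z : ℤ_[p]) {r d v m R L L' ck cm d' : ℕ} {e : ℕ}
    (hR : ((h.map (Int.castRingHom ℤ_[p])).taylor z).coeff m ∣ (R : ℤ_[p]))
    (hr : (p : ℤ_[p]) ^ v ∣ ((r : ℤ_[p]) - z)) (hd : d = p ^ v * d') (hd' : ¬ p ∣ d')
    (hL : L = p ^ (m * v) * L')
    (h1 : (L : ℤ) * cm = (taylor (r : ℤ) h).coeff m * (d : ℤ) ^ m)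
    (h2 : (L : ℤ) * ck = h.coeff k * (d : ℤ) ^ k)
    (hc : p ^ e ∣ cm) (hck : p ^ e ∣ ck) : (p : ℤ) ^ e ∣ h.coeff k * (R : ℤ) ^ k := by
  have hp : p.Prime := Fact.out
  have hp0 : (p : ℤ_[p]) ≠ 0 := by exact_mod_cast hp.ne_zero
  have hunit : IsUnit (d' : ℤ_[p]) := by
    have h3 : ¬ (p : ℤ) ∣ (d' : ℤ) := by exact_mod_cast hd'
    rw [PadicInt.isUnit_iff]
    have h4 : ¬ ‖((d' : ℤ) : ℤ_[p])‖ < 1 := by
      rw [PadicInt.norm_int_lt_one_iff_dvd]
      exact h3
    have h5 : ‖((d' : ℤ) : ℤ_[p])‖ = 1 := le_antisymm (PadicInt.norm_le_one _) (not_lt.mp h4)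
    simpa using h5
  set T : ℤ_[p] := ((h.map (Int.castRingHom ℤ_[p])).taylor z).coeff m with hT
  set S : ℤ := (taylor (r : ℤ) h).coeff m with hS
  -- `p^e ∣ S`
  have hS1 : (p : ℤ_[p]) ^ e ∣ (S : ℤ_[p]) := by
    have h3 : (L' : ℤ_[p]) * cm = S * (d' : ℤ_[p]) ^ m := by
      have h4 : ((L : ℤ_[p]) * cm) = S * (d : ℤ_[p]) ^ m := by
        exact_mod_cast congrArg (Int.cast : ℤ → ℤ_[p]) h1
      rw [hL, hd] at h4
      push_cast at h4
      have h5 : ((p : ℤ_[p]) ^ (m * v)) ≠ 0 := pow_ne_zero _ hp0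
      apply mul_left_cancel₀ h5
      rw [mul_pow, ← pow_mul, mul_comm v m] at h4
      linear_combination h4
    have h4 : (p : ℤ_[p]) ^ e ∣ S * (d' : ℤ_[p]) ^ m := by
      rw [← h3]
      refine Dvd.dvd.mul_left ?_ _
      exact_mod_cast map_dvd (Nat.castRingHom ℤ_[p]) hc
    exact ((hunit.pow m).dvd_mul_right).mp h4
  -- `p^v ∣ S - T`
  have hST : (p : ℤ_[p]) ^ v ∣ (S : ℤ_[p]) - T := by
    refine dvd_trans hr ?_
    have h3 : (S : ℤ_[p]) = (hasseDeriv m (h.map (Int.castRingHom ℤ_[p]))).eval (r : ℤ_[p]) := by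
      rw [hS, ← taylor_coeff, taylor_apply, taylor_apply]
      have e1 : (h.comp (X + C (r : ℤ))).map (Int.castRingHom ℤ_[p]) =
        (h.map (Int.castRingHom ℤ_[p])).comp (X + C (r : ℤ_[p])) := by
        rw [Polynomial.map_comp]; simp
      rw [← e1, coeff_map]
      simp
    rw [h3, hT, taylor_coeff]
    exact sub_dvd_eval_sub _ _ _
  -- it suffices to work in `ℤ_p`
  rw [← PadicInt.pow_p_dvd_int_iff]
  push_cast
  by_cases hpv : (p : ℤ_[p]) ^ v ∣ T
  · -- use the leading coefficient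
    have hvR : (p : ℤ_[p]) ^ v ∣ (R : ℤ_[p]) := dvd_trans hpv hR
    have h3 : (p : ℤ_[p]) ^ e ∣ ((h.coeff k : ℤ) : ℤ_[p]) * ((p : ℤ_[p]) ^ v) ^ k := by
      have h4 : ((L : ℤ_[p]) * ck) = ((h.coeff k : ℤ) : ℤ_[p]) * (d : ℤ_[p]) ^ k := by
        exact_mod_cast congrArg (Int.cast : ℤ → ℤ_[p]) h2
      have h5 : (p : ℤ_[p]) ^ e ∣ ((h.coeff k : ℤ) : ℤ_[p]) * ((p : ℤ_[p]) ^ v) ^ k *
          (d' : ℤ_[p]) ^ k := by
        have h6 : ((h.coeff k : ℤ) : ℤ_[p]) * ((p : ℤ_[p]) ^ v) ^ k * (d' : ℤ_[p]) ^ k =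
            (L : ℤ_[p]) * ck := by
          rw [h4, hd]; push_cast; ring
        rw [h6]
        refine Dvd.dvd.mul_left ?_ _
        exact_mod_cast map_dvd (Nat.castRingHom ℤ_[p]) hck
      exact ((hunit.pow k).dvd_mul_right).mp h5
    exact dvd_trans h3 (mul_dvd_mul_left _ (pow_dvd_pow_of_dvd hvR k))
  · -- use the coefficient of index `m`
    have hev : e ≤ v := by
      by_contra hlt
      apply hpv
      have h3 : (p : ℤ_[p]) ^ v ∣ (S : ℤ_[p]) := dvd_trans (pow_dvd_pow _ (by omega)) hS1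
      have h4 := dvd_sub h3 hST
      rwa [sub_sub_cancel] at h4
    have h3 : (p : ℤ_[p]) ^ e ∣ T := by
      have h4 := dvd_sub hS1 (dvd_trans (pow_dvd_pow _ hev) hST)
      rwa [sub_sub_cancel] at h4
    refine Dvd.dvd.mul_left ?_ _
    exact dvd_trans (dvd_trans h3 hR) (dvd_pow_self _ (by omega))

/-- The family for a polynomial with positive coefficients.

PROOF. For each prime `p` choose a root `z_p ∈ ℤ_p` of `h` (`exists_padic_root`), of multiplicity
`1 ≤ m_p ≤ k`. `λ(d) = ∏_p p^{m_p v_p(d)}` (`d.factorization.prod`), completely multiplicative,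
`d ∣ λ(d) ∣ d^k`. For `d ≥ 1` choose by the Chinese remainder theorem `0 ≤ r_d < d` with
`r_d ≡ z_p mod p^{v_p(d)}` for all `p ∣ d`; so `r_{dq} ≡ r_d mod d`, hence
`r_{dq} = r_d + d y₀` with `y₀ ≥ 0`. Integrality: in `ℤ_p[X]`, `h = (X - z_p)^m G`, and with
`v = v_p(d)`, `r_d + d X - z_p ∈ p^v ℤ_p[X]`, so `h(r_d + d X) ∈ p^{m v} ℤ_p[X]`. Hence
`λ(d)` divides all coefficients of `h(r_d + d X) ∈ ℤ[X]`; `H d` is the quotient. `H 1 = h`
(`r_1 = 0`, `λ(1) = 1`).
Coefficients: `coeff j (H d) = d^j h^{[j]}(r_d)/λ(d)` (Hasse derivatives), positive because all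
coefficients of `h` are positive and `r_d ≥ 0`; for `0 ≤ r < d`,
`d^j h^{[j]}(r) ≤ (∑_i C(i,j) a_i) d^k ≤ B a_k d^k` and `coeff k (H d) = a_k d^k/λ(d)`.
`coeff k ≤ a_k d^k ≤ B d^k`.
Content: let `t` divide all nonconstant coefficients of `H d`, `R` from `exists_R`. Then
`t ∣ a_k R^k`, so `Δ = a_k R^k` works: let `p` be a prime, `v = v_p(d)`, `m = m_p`. If `v = 0`:
`v_p(coeff k (H d)) = v_p(a_k)`. If `v ≥ 1`: `v_p(coeff m (H d)) = v_p(h^{[m]}(r_d))`, where
`r_d ≡ z_p mod p^v`. Let `ε = v_p(h^{[m]}(z_p)) ≤ v_p(R)`. If `v > ε` then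
`v_p(h^{[m]}(r_d)) = ε ≤ v_p(R)`. If `v ≤ ε` use `coeff k`:
`v_p(a_k d^k/λ(d)) ≤ v_p(a_k) + k v ≤ v_p(a_k) + k v_p(R)`.
Inheritance: `λ(q) H_{dq}(n) = h(r_{dq} + d q n)/λ(d) = h(r_d + d (y₀ + q n))/λ(d) = H_d(y₀ + q n)`.
-/
theorem family_of_pos (h : ℤ[X]) (k : ℕ) (hk : 1 ≤ k) (hdeg : h.natDegree = k)
    (hpos : ∀ j : ℕ, j ≤ k → 0 < h.coeff j)
    (hint : ∀ q : ℕ, 1 ≤ q → ∃ t : ℤ, (q : ℤ) ∣ h.eval t) :
    ∃ F : AuxFamily k, F.H 1 = h := by
  classical
  have hak : 0 < h.coeff k := hpos k le_rfl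
  have hh0 : h ≠ 0 := by
    rintro rfl
    simp at hak
  have hinj : ∀ (p : ℕ) [Fact p.Prime], Function.Injective (Int.castRingHom ℤ_[p]) :=
    fun p _ => Int.cast_injective
  have hm0 : ∀ (p : ℕ) [Fact p.Prime], h.map (Int.castRingHom ℤ_[p]) ≠ 0 := fun p _ =>
    (Polynomial.map_ne_zero_iff (hinj p)).mpr hh0
  have hroot : ∀ (p : ℕ) [Fact p.Prime], ∃ z : ℤ_[p], (h.map (Int.castRingHom ℤ_[p])).IsRoot z :=
    fun p _ => exists_padic_root h hint p
  choose z hz using hroot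
  obtain ⟨R, hR0, hR⟩ := exists_R h hh0
  -- multiplicities
  let m : ℕ → ℕ := fun p => if hp : p.Prime then
    (have := Fact.mk hp; (h.map (Int.castRingHom ℤ_[p])).rootMultiplicity (z p)) else 1
  have hmp : ∀ (p : ℕ) [hp : Fact p.Prime],
      m p = (h.map (Int.castRingHom ℤ_[p])).rootMultiplicity (z p) := by
    intro p hp
    simp only [m, dif_pos hp.out]
  have hm1 : ∀ p, p.Prime → 1 ≤ m p := by
    intro p hp
    have := Fact.mk hp
    rw [hmp p]
    exact (rootMultiplicity_pos (hm0 p)).mpr (hz p)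
  have hmk : ∀ p, p.Prime → m p ≤ k := by
    intro p hp
    have := Fact.mk hp
    rw [hmp p]
    have h1 := natDegree_le_of_dvd (pow_rootMultiplicity_dvd (h.map (Int.castRingHom ℤ_[p])) (z p))
      (hm0 p)
    rw [natDegree_pow, natDegree_X_sub_C, mul_one, natDegree_map_eq_of_injective (hinj p),
      hdeg] at h1
    exact h1
  -- the residues
  have hr : ∀ d : ℕ, ∃ r : ℕ, 0 < d → (r < d ∧ ∀ (p : ℕ) [Fact p.Prime],
      (p : ℤ_[p]) ^ (d.factorization p) ∣ ((r : ℤ_[p]) - z p)) := by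
    intro d
    by_cases hd : 0 < d
    · obtain ⟨r, hr⟩ := exists_crt z hd
      exact ⟨r, fun _ => hr⟩
    · exact ⟨0, fun h => absurd h hd⟩
  choose r hr using hr
  -- the polynomials
  have hH : ∀ d : ℕ, ∃ P : ℤ[X], 0 < d → C (lamOf m d : ℤ) * P =
      (taylor (r d : ℤ) h).comp (C (d : ℤ) * X) := by
    intro d
    by_cases hd : 0 < d
    · have h1 : C (lamOf m d : ℤ) ∣ (taylor (r d : ℤ) h).comp (C (d : ℤ) * X) := by
        rw [C_dvd_iff_dvd_coeff]
        intro j
        rw [comp_C_mul_X_coeff]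
        apply lamOf_dvd
        intro p hp
        have := Fact.mk hp
        refine taylor_mul_pow_dvd h (z p) ?_ ((hr d hd).2 p) ?_ j
        · rw [hmp p]
          exact pow_rootMultiplicity_dvd _ _
        · have h2 : (p ^ d.factorization p : ℕ) ∣ d := Nat.ordProj_dvd d p
          exact_mod_cast map_dvd (Nat.castRingHom ℤ_[p]) h2
      obtain ⟨P, hP⟩ := h1
      exact ⟨P, fun _ => hP.symm⟩
    · exact ⟨0, fun h => absurd h hd⟩
  choose H hH using hH
  have hco : ∀ d : ℕ, 0 < d → ∀ j : ℕ, (lamOf m d : ℤ) * (H d).coeff j =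
      (taylor (r d : ℤ) h).coeff j * (d : ℤ) ^ j := by
    intro d hd j
    have h1 := congrArg (fun P => P.coeff j) (hH d hd)
    simp only [comp_C_mul_X_coeff] at h1
    rw [coeff_C_mul] at h1
    exact h1
  have hlead : ∀ d : ℕ, 0 < d → (lamOf m d : ℤ) * (H d).coeff k = h.coeff k * (d : ℤ) ^ k := by
    intro d hd
    rw [hco d hd, leading_taylor hdeg]
  have hL0 : ∀ d : ℕ, (0 : ℤ) < (lamOf m d : ℤ) := fun d => by
    exact_mod_cast lamOf_pos m d
  have hcpos : ∀ d : ℕ, 0 < d → ∀ j : ℕ, j ≤ k → 0 < (H d).coeff j := by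
    intro d hd j hj
    have h1 := hco d hd j
    have h2 : 0 < (taylor (r d : ℤ) h).coeff j :=
      lt_of_lt_of_le (hpos j hj) (le_taylor_coeff hdeg hpos (r d) j)
    have h3 : (0 : ℤ) < (taylor (r d : ℤ) h).coeff j * (d : ℤ) ^ j := by positivity
    rw [← h1] at h3
    exact (mul_pos_iff_of_pos_left (hL0 d)).mp h3
  have hone : H 1 = h := by
    have h1 := hH 1 one_pos
    have h2 : r 1 = 0 := by
      have := (hr 1 one_pos).1
      omega
    rw [lamOf_one, h2] at h1
    simpa using h1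
  -- inheritance
  have hinh : ∀ d q n : ℕ, 0 < d → 0 < q → 0 < n →
      ∃ y : ℕ, 0 < y ∧ (lamOf m q : ℤ) * (H (d * q)).eval (n : ℤ) = (H d).eval (y : ℤ) := by
    intro d q n hd hq hn
    have hdq : 0 < d * q := Nat.mul_pos hd hq
    have hcong : (d : ℤ) ∣ (r (d * q) : ℤ) - (r d : ℤ) := by
      apply dvd_of_padic hd
      intro p hp
      have h1 := (hr (d * q) hdq).2 p
      have h2 := (hr d hd).2 p
      have h3 : (p : ℤ_[p]) ^ (d.factorization p) ∣ ((r (d * q) : ℤ_[p]) - z p) := by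
        refine dvd_trans (pow_dvd_pow _ ?_) h1
        rw [Nat.factorization_mul hd.ne' hq.ne']
        simp
      have h4 := dvd_sub h3 h2
      push_cast
      have h5 : ((r (d * q) : ℤ_[p]) - z p) - ((r d : ℤ_[p]) - z p) =
        (r (d * q) : ℤ_[p]) - (r d : ℤ_[p]) := by ring
      rwa [h5] at h4
    have hmod : r (d * q) % d = r d := by
      have h1 : r (d * q) ≡ r d [MOD d] := (Nat.modEq_iff_dvd.mpr hcong).symm
      rw [Nat.ModEq, Nat.mod_eq_of_lt (hr d hd).1] at h1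
      exact h1
    have hdecomp : r (d * q) = r d + d * (r (d * q) / d) := by
      conv_lhs => rw [← Nat.mod_add_div (r (d * q)) d, hmod]
    refine ⟨r (d * q) / d + q * n, by positivity, ?_⟩
    have hev : ∀ d : ℕ, 0 < d → ∀ x : ℤ, (lamOf m d : ℤ) * (H d).eval x =
        h.eval ((r d : ℤ) + d * x) := by
      intro d hd x
      have h1 := congrArg (fun P => P.eval x) (hH d hd)
      simp only [eval_mul, eval_C, eval_comp, eval_X, taylor_eval] at h1
      rw [h1]
      congr 1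
      ring
    apply mul_left_cancel₀ (hL0 d).ne'
    rw [hev d hd]
    have h1 := hev (d * q) hdq (n : ℤ)
    rw [lamOf_mul m hd hq] at h1
    push_cast at h1
    rw [← mul_assoc, h1]
    congr 1
    have h2 : ((r (d * q) : ℕ) : ℤ) = (r d : ℤ) + d * ((r (d * q) / d : ℕ) : ℤ) := by
      exact_mod_cast hdecomp
    rw [h2]
    push_cast
    ring
  -- content
  have hcont : ∀ d : ℕ, 0 < d → ∀ t : ℕ, (∀ j : ℕ, 1 ≤ j → (t : ℤ) ∣ (H d).coeff j) →
      t ≤ (h.coeff k).toNat * R ^ k := by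
    intro d hd t ht
    have hak' : ((h.coeff k).toNat : ℤ) = h.coeff k := Int.toNat_of_nonneg hak.le
    have hakn : 0 < (h.coeff k).toNat := by
      have : (0 : ℤ) < ((h.coeff k).toNat : ℤ) := by rw [hak']; exact hak
      exact_mod_cast this
    apply Nat.le_of_dvd (Nat.mul_pos hakn (pow_pos hR0 _))
    rw [Nat.dvd_iff_prime_pow_dvd_dvd]
    intro p e hp hpe
    have := Fact.mk hp
    have hpe' : ((p : ℤ) ^ e) ∣ (t : ℤ) := by exact_mod_cast hpe
    have hcm : p ^ e ∣ ((H d).coeff (m p)).toNat := by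
      have h1 := dvd_trans hpe' (ht (m p) (hm1 p hp))
      have h2 : (((H d).coeff (m p)).toNat : ℤ) = (H d).coeff (m p) :=
        Int.toNat_of_nonneg (hcpos d hd _ (hmk p hp)).le
      rw [← h2] at h1
      exact_mod_cast h1
    have hck : p ^ e ∣ ((H d).coeff k).toNat := by
      have h1 := dvd_trans hpe' (ht k hk)
      have h2 : (((H d).coeff k).toNat : ℤ) = (H d).coeff k :=
        Int.toNat_of_nonneg (hcpos d hd _ le_rfl).le
      rw [← h2] at h1
      exact_mod_cast h1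
    have hdd : d = p ^ d.factorization p * (d / p ^ d.factorization p) :=
      (Nat.ordProj_mul_ordCompl_eq_self d p).symm
    have hd'0 : 0 < d / p ^ d.factorization p := Nat.ordCompl_pos p hd.ne'
    have hLL : lamOf m d = p ^ (m p * d.factorization p) * lamOf m (d / p ^ d.factorization p) := by
      conv_lhs => rw [hdd]
      rw [lamOf_mul m (pow_pos hp.pos _) hd'0, lamOf_prime_pow m hp]
    have hfin := content_local h hk (z p) (r := r d) (d := d) (v := d.factorization p)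
      (m := m p) (R := R) (L := lamOf m d) (L' := lamOf m (d / p ^ d.factorization p))
      (ck := ((H d).coeff k).toNat) (cm := ((H d).coeff (m p)).toNat)
      (d' := d / p ^ d.factorization p) (e := e)
      (by rw [hmp p]; exact hR p (z p) (hz p)) ((hr d hd).2 p) hdd
      (Nat.not_dvd_ordCompl hp hd.ne') hLL
      (by rw [Int.toNat_of_nonneg (hcpos d hd _ (hmk p hp)).le]; exact hco d hd _)
      (by rw [Int.toNat_of_nonneg (hcpos d hd _ le_rfl).le]; exact hlead d hd) hcm hck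
    rw [← hak'] at hfin
    exact_mod_cast hfin
  have hB : h.coeff k ≤ (famBd h k : ℤ) := by
    have h1 := taylor_coeff_le hdeg hpos (r := 0) (d := 1) one_pos (j := k) le_rfl
    rw [leading_taylor hdeg] at h1
    simpa using h1
  refine ⟨{ lam := lamOf m
            H := H
            B := famBd h k
            Δ := (h.coeff k).toNat * R ^ k
            lam_mul := fun a b ha hb => lamOf_mul m ha hb
            dvd_lam := fun d hd => dvd_lamOf hm1 hd
            lam_le := fun d hd => Nat.le_of_dvd (pow_pos hd _) (lamOf_dvd_pow hmk hd)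
            lam_pos := fun d _ => lamOf_pos m d
            natDegree_H := ?_
            coeff_pos := hcpos
            coeff_le := ?_
            lead_le := ?_
            content := hcont
            inherit := hinh }, hone⟩
  · intro d hd
    have hd0 : (d : ℤ) ≠ 0 := by exact_mod_cast hd.ne'
    have h1 := congrArg natDegree (hH d hd)
    rw [natDegree_C_mul (hL0 d).ne', natDegree_comp, natDegree_taylor, natDegree_C_mul_X _ hd0,
      hdeg, mul_one] at h1
    exact h1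
  · intro d hd j hj
    have h1 := taylor_coeff_le hdeg hpos (hr d hd).1 hj
    rw [← hco d hd] at h1
    apply le_of_mul_le_mul_left _ (hL0 d)
    refine h1.trans ?_
    have h2 : (lamOf m d : ℤ) * ((famBd h k : ℤ) * (H d).coeff k) =
        (famBd h k : ℤ) * (h.coeff k * (d : ℤ) ^ k) := by
      rw [← hlead d hd]; ring
    rw [h2]
    refine mul_le_mul_of_nonneg_left ?_ (by positivity)
    have h3 : (0 : ℤ) ≤ (d : ℤ) ^ k := by positivity
    nlinarith
  · intro d hd
    have h1 := hlead d hd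
    have h2 : (1 : ℤ) ≤ (lamOf m d : ℤ) := hL0 d
    have h3 := hcpos d hd k le_rfl
    have h4 : (0 : ℤ) ≤ (d : ℤ) ^ k := by positivity
    calc (H d).coeff k ≤ (lamOf m d : ℤ) * (H d).coeff k := by nlinarith
      _ = h.coeff k * (d : ℤ) ^ k := h1
      _ ≤ (famBd h k : ℤ) * (d : ℤ) ^ k := mul_le_mul_of_nonneg_right hB h4

theorem exists_auxFamily (h : ℤ[X]) (k : ℕ) (hk : 1 ≤ k) (hdeg : h.natDegree = k)
    (hlc : 0 < h.leadingCoeff) (hint : ∀ q : ℕ, 1 ≤ q → ∃ t : ℤ, (q : ℤ) ∣ h.eval t) :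
    ∃ (F : AuxFamily k) (s : ℕ), F.H 1 = h.comp (X + C (s : ℤ)) := by
  obtain ⟨s, hs⟩ := exists_shift h hlc
  have hdeg' : (h.comp (X + C (s : ℤ))).natDegree = k := by
    rw [natDegree_comp, natDegree_X_add_C, mul_one, hdeg]
  obtain ⟨F, hF⟩ := family_of_pos (h.comp (X + C (s : ℤ))) k hk hdeg' (by rwa [hdeg] at hs) (by
    intro q hq
    obtain ⟨t, ht⟩ := hint q hq
    refine ⟨t - s, ?_⟩
    simpa [eval_comp] using ht)
  exact ⟨F, s, hF⟩

end Vale.Agent.P042.UB
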