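import Vale.Agent.Lib.P042.UB.Defs

set_option autoImplicit false

namespace Vale.Agent.P042.UB

open Polynomial

/-- An intersective polynomial has a root in `ℤ_p`.

PROOF. For every `n` pick `t_n ∈ ℤ` with `p^n ∣ h(t_n)`. `ℤ_p` is compact, take a convergent
subsequence `t_{n_i} → z`; by continuity `h(z) = lim h(t_{n_i}) = 0`. -/
theorem exists_padic_root (h : ℤ[X]) (hint : ∀ q : ℕ, 1 ≤ q → ∃ t : ℤ, (q : ℤ) ∣ h.eval t)
    (p : ℕ) [Fact p.Prime] : ∃ z : ℤ_[p], (h.map (Int.castRingHom ℤ_[p])).IsRoot z := by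
  have hp : p.Prime := Fact.out
  set H := h.map (Int.castRingHom ℤ_[p]) with hH
  have hcont : Continuous (fun z : ℤ_[p] => ‖H.eval z‖) := H.continuous.norm
  obtain ⟨z, -, hz⟩ := (isCompact_univ (X := ℤ_[p])).exists_isMinOn Set.univ_nonempty
    hcont.continuousOn
  refine ⟨z, ?_⟩
  have h1 : ∀ n : ℕ, ‖H.eval z‖ ≤ ((p : ℝ)⁻¹) ^ n := by
    intro n
    obtain ⟨t, ht⟩ := hint (p ^ n) (Nat.one_le_pow _ _ hp.pos)
    have h2 : ‖H.eval z‖ ≤ ‖H.eval (t : ℤ_[p])‖ := (isMinOn_iff.1 hz) _ (Set.mem_univ _)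
    refine h2.trans ?_
    rw [hH, eval_intCast_map]
    have h3 : ‖((h.eval t : ℤ) : ℤ_[p])‖ ≤ (p : ℝ) ^ (-(n : ℤ)) := by
      rw [PadicInt.norm_int_le_pow_iff_dvd]
      exact_mod_cast ht
    rw [zpow_neg, zpow_natCast, ← inv_pow] at h3
    exact h3
  have h4 : Filter.Tendsto (fun n : ℕ => ((p : ℝ)⁻¹) ^ n) Filter.atTop (nhds 0) := by
    apply tendsto_pow_atTop_nhds_zero_of_lt_one (by positivity)
    apply inv_lt_one_of_one_lt₀
    exact_mod_cast hp.one_lt
  have h5 : ‖H.eval z‖ ≤ 0 := ge_of_tendsto' h4 h1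
  exact norm_le_zero_iff.1 h5

theorem hasseDeriv_map_ringHom {R S : Type*} [Semiring R] [Semiring S] (f : R →+* S) (k : ℕ)
    (q : R[X]) : hasseDeriv k (q.map f) = (hasseDeriv k q).map f := by
  ext n
  rw [hasseDeriv_coeff, coeff_map, coeff_map, hasseDeriv_coeff, map_mul, map_natCast]

/-- The bound for one irreducible factor and one Hasse derivative. -/
theorem exists_N (μ : ℚ[X]) (g : ℤ[X]) : ∃ N : ℕ, 0 < N ∧
    (IsCoprime μ (g.map (Int.castRingHom ℚ)) → ∃ (w : ℤ[X]) (u : ℚ[X]),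
      u * μ + w.map (Int.castRingHom ℚ) * g.map (Int.castRingHom ℚ) = C (N : ℚ)) := by
  by_cases hc : IsCoprime μ (g.map (Int.castRingHom ℚ))
  · obtain ⟨u, w, huw⟩ := hc
    obtain ⟨b, hb0, hb⟩ := IsLocalization.integerNormalization_spec (nonZeroDivisors ℤ) w
    set w₁ : ℤ[X] := IsLocalization.integerNormalization (nonZeroDivisors ℤ) w with hw₁
    have hb0' : b ≠ 0 := nonZeroDivisors.ne_zero hb0
    refine ⟨b.natAbs, Int.natAbs_pos.2 hb0', fun _ => ⟨C b.sign * w₁, C (b.natAbs : ℚ) * u, ?_⟩⟩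
    have h1 : (w₁.map (Int.castRingHom ℚ)) = C (b : ℚ) * w := by
      have h2 : algebraMap ℤ ℚ = Int.castRingHom ℚ := RingHom.ext_int _ _
      rw [h2] at hb
      rw [hb, zsmul_eq_mul, map_intCast]
    have h3 : (b.sign : ℚ) * (b : ℚ) = (b.natAbs : ℚ) := by
      have h4 := Int.sign_mul_self_eq_natAbs b
      have h5 : ((b.sign * b : ℤ) : ℚ) = ((b.natAbs : ℤ) : ℚ) := by rw [h4]
      rw [Int.cast_mul, Int.cast_natCast] at h5
      exact h5
    rw [Polynomial.map_mul, map_C, h1, eq_intCast, ← mul_assoc (C ((b.sign : ℤ) : ℚ)), ← C_mul, h3]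
    calc C (b.natAbs : ℚ) * u * μ + C (b.natAbs : ℚ) * w * g.map (Int.castRingHom ℚ)
        = C (b.natAbs : ℚ) * (u * μ + w * g.map (Int.castRingHom ℚ)) := by ring
      _ = C (b.natAbs : ℚ) := by rw [huw, mul_one]
  · exact ⟨1, one_pos, fun h => absurd h hc⟩

/-- Uniform bound for the first nonvanishing Taylor coefficient at `p`-adic roots.

PROOF. Let `z ∈ ℤ_p` be a root of `h`, of multiplicity `m` in `ℤ_p[X]`. `z` is algebraic over
`ℚ`; its minimal polynomial `μ` over `ℚ` is one of the finitely many monic irreducible factors of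
`h` in `ℚ[X]`, and the `m`-th
Hasse derivative `h^{[m]}` (`Polynomial.hasseDeriv m h`) does not vanish at `z`, so it
is coprime to `μ` in `ℚ[X]`: `u μ + w h^{[m]} = 1`, clearing denominators
`w₁(z) h^{[m]}(z) = R_μ` with `w₁ ∈ ℤ[X]`, `R_μ ∈ ℕ` positive depending on `μ` (hence on `h`) only.
`R = ∏ R_μ`. The Taylor coefficient in the statement is `h^{[m]}(z)`
(`Polynomial.taylor_coeff`). -/
theorem exists_R (h : ℤ[X]) (hh : h ≠ 0) : ∃ R : ℕ, 0 < R ∧ ∀ (p : ℕ) [Fact p.Prime] (z : ℤ_[p]),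
    (h.map (Int.castRingHom ℤ_[p])).IsRoot z →
      ((h.map (Int.castRingHom ℤ_[p])).taylor z).coeff
        ((h.map (Int.castRingHom ℤ_[p])).rootMultiplicity z) ∣ (R : ℤ_[p]) := by
  classical
  choose N hN0 hN using fun (μ : ℚ[X]) (m : ℕ) => exists_N μ (hasseDeriv m h)
  set hQ : ℚ[X] := h.map (Int.castRingHom ℚ) with hhQ
  have hQ0 : hQ ≠ 0 := (Polynomial.map_ne_zero_iff Int.cast_injective).2 hh
  refine ⟨∏ μ ∈ (UniqueFactorizationMonoid.normalizedFactors hQ).toFinset,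
    ∏ m ∈ Finset.range (h.natDegree + 1), N μ m,
    Finset.prod_pos fun μ _ => Finset.prod_pos fun m _ => hN0 μ m, ?_⟩
  intro p _ z hz
  set H := h.map (Int.castRingHom ℤ_[p]) with hH
  have hH0 : H ≠ 0 := (Polynomial.map_ne_zero_iff Int.cast_injective).2 hh
  set m := H.rootMultiplicity z with hm
  have hcne : (H.taylor z).coeff m ≠ 0 := by
    rw [hm, rootMultiplicity_eq_natTrailingDegree, ← taylor_apply]
    have : taylor z H ≠ 0 := by
      intro h0
      exact hH0 ((taylor_injective z) (by rw [h0, map_zero]))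
    exact trailingCoeff_nonzero_iff_nonzero.2 this
  have hmle : m < h.natDegree + 1 := by
    have h1 := le_natDegree_of_ne_zero hcne
    rw [natDegree_taylor] at h1
    have h2 : H.natDegree ≤ h.natDegree := natDegree_map_le
    omega
  rw [taylor_coeff] at hcne ⊢
  -- pass to the field of p-adic numbers
  have hcomp : (Int.castRingHom ℚ_[p]) = (algebraMap ℤ_[p] ℚ_[p]).comp (Int.castRingHom ℤ_[p]) :=
    RingHom.ext_int _ _
  have hcomp2 : (Int.castRingHom ℚ_[p]) = (algebraMap ℚ ℚ_[p]).comp (Int.castRingHom ℚ) :=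
    RingHom.ext_int _ _
  have hev : ∀ g : ℤ[X], aeval (algebraMap ℤ_[p] ℚ_[p] z) (g.map (Int.castRingHom ℚ)) =
      algebraMap ℤ_[p] ℚ_[p] ((g.map (Int.castRingHom ℤ_[p])).eval z) := by
    intro g
    rw [aeval_def, eval₂_map, ← hcomp2, hcomp, ← hom_eval₂, eval₂_eq_eval_map]
  have hinj : Function.Injective (algebraMap ℤ_[p] ℚ_[p]) := IsFractionRing.injective _ _
  have hroot : aeval (algebraMap ℤ_[p] ℚ_[p] z) hQ = 0 := by
    rw [hhQ, hev, ← hH, hz.eq_zero, map_zero]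
  have hint : IsIntegral ℚ (algebraMap ℤ_[p] ℚ_[p] z) :=
    isAlgebraic_iff_isIntegral.1 ⟨hQ, hQ0, hroot⟩
  set μ := minpoly ℚ (algebraMap ℤ_[p] ℚ_[p] z) with hμ
  have hirr : Irreducible μ := minpoly.irreducible hint
  have hmem : μ ∈ (UniqueFactorizationMonoid.normalizedFactors hQ).toFinset := by
    rw [Multiset.mem_toFinset, UniqueFactorizationMonoid.mem_normalizedFactors_iff' hQ0]
    exact ⟨hirr, (minpoly.monic hint).normalize_eq_self, minpoly.dvd _ _ hroot⟩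
  have hcop : IsCoprime μ ((hasseDeriv m h).map (Int.castRingHom ℚ)) := by
    rw [hirr.coprime_iff_not_dvd]
    intro hdvd
    apply hcne
    apply hinj
    rw [hH, hasseDeriv_map_ringHom, ← hev, map_zero]
    obtain ⟨q, hq⟩ := hdvd
    rw [hq, map_mul, hμ, minpoly.aeval, zero_mul]
  obtain ⟨w, u, hwu⟩ := hN μ m hcop
  have h3 := congrArg (aeval (algebraMap ℤ_[p] ℚ_[p] z)) hwu
  rw [map_add, map_mul, map_mul, hμ, minpoly.aeval, mul_zero, zero_add, hev, hev, aeval_C,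
    map_natCast, ← map_mul, ← hasseDeriv_map_ringHom, ← hH] at h3
  have h4 : (w.map (Int.castRingHom ℤ_[p])).eval z * (hasseDeriv m H).eval z =
      (N μ m : ℤ_[p]) := by
    apply hinj
    rw [h3, map_natCast]
  have h5 : (hasseDeriv m H).eval z ∣ (N μ m : ℤ_[p]) := ⟨_, by rw [← h4, mul_comm]⟩
  refine h5.trans ?_
  have h6 : N μ m ∣ ∏ μ ∈ (UniqueFactorizationMonoid.normalizedFactors hQ).toFinset,
      ∏ m ∈ Finset.range (h.natDegree + 1), N μ m :=
    (Finset.dvd_prod_of_mem (N μ) (Finset.mem_range.2 hmle)).trans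
      (Finset.dvd_prod_of_mem (fun μ => ∏ m ∈ Finset.range (h.natDegree + 1), N μ m) hmem)
  obtain ⟨c, hc⟩ := h6
  rw [hc]
  push_cast
  exact dvd_mul_right _ _

end Vale.Agent.P042.UB
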